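import Vale.Agent.P237.Petty.Cor.Mid50.Poly

/-!
# P237: constants of the cell from `19 / (p + 2)` to `19 / 25`, `31 ≤ p ≤ 47`, middle orders
-/

namespace Vale.Agent.P237.Petty.Cor.Mid32.Cell4

open Mid50

/-- The piece on `[0, 3 / 25]`. -/
def piece1 : Piece :=
  ⟨(0), (3 / 25), (1 / 32), (9999 / 10000), (5001 / 10000), (10001 / 10000),
    (2501 / 5000), (11633 / 5000), (117417 / 10000), (0), (6801 / 2500), true⟩

/-- The piece on `[3 / 25, 1 / 4]`. -/
def piece2 : Piece :=
  ⟨(3 / 25), (1 / 4), (1 / 32), (9999 / 10000), (313 / 625), (10001 / 10000),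
    (5009 / 10000), (24133 / 10000), (44119 / 10000), (0), (6801 / 2500), true⟩

/-- The piece on `[1 / 4, 2 / 5]`. -/
def piece3 : Piece :=
  ⟨(1 / 4), (2 / 5), (1 / 32), (9999 / 10000), (5023 / 10000), (10001 / 10000),
    (314 / 625), (5899 / 2500), (26159 / 10000), (1 / 4), (5103 / 2000), true⟩

/-- The piece on `[2 / 5, 11 / 20]`. -/
def piece4 : Piece :=
  ⟨(2 / 5), (11 / 20), (1 / 32), (9999 / 10000), (631 / 1250), (1),
    (5049 / 10000), (24441 / 10000), (19143 / 10000), (2 / 5), (6313 / 2500), true⟩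

/-- The piece on `[11 / 20, 7 / 10]`. -/
def piece5 : Piece :=
  ⟨(11 / 20), (7 / 10), (1 / 32), (9999 / 10000), (2541 / 5000), (1),
    (5083 / 10000), (25603 / 10000), (769 / 500), (2 / 5), (6313 / 2500), true⟩

/-- The piece on `[7 / 10, 17 / 20]`. -/
def piece6 : Piece :=
  ⟨(7 / 10), (17 / 20), (1 / 32), (4999 / 5000), (41 / 80), (1),
    (2563 / 5000), (6709 / 2500), (808 / 625), (2 / 5), (6313 / 2500), true⟩

/-- The piece on `[17 / 20, 1]`. -/
def piece7 : Piece :=
  ⟨(17 / 20), (1), (1 / 32), (9997 / 10000), (2589 / 5000), (9999 / 10000),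
    (259 / 500), (14067 / 5000), (5591 / 5000), (2 / 5), (6313 / 2500), true⟩

/-- The piece on `[1, 6 / 5]`. -/
def piece8 : Piece :=
  ⟨(1), (6 / 5), (1 / 32), (1999 / 2000), (5257 / 10000), (9997 / 10000),
    (2629 / 5000), (1189 / 400), (9673 / 10000), (2 / 5), (6313 / 2500), true⟩

/-- The piece on `[6 / 5, 131 / 100]`. -/
def piece9 : Piece :=
  ⟨(6 / 5), (131 / 100), (1 / 32), (1249 / 1250), (533 / 1000), (4997 / 5000),
    (1333 / 2500), (31177 / 10000), (8657 / 10000), (2 / 5), (6313 / 2500), true⟩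

/-- The piece on `[131 / 100, 2]`. -/
def piece10 : Piece :=
  ⟨(131 / 100), (2), (1 / 32), (2493 / 2500), (5669 / 10000), (9981 / 10000),
    (2839 / 5000), (3523 / 1000), (3391 / 5000), (2 / 5), (6313 / 2500), false⟩

/-- The piece on `[2, 23 / 10]`. -/
def piece11 : Piece :=
  ⟨(2), (23 / 10), (1 / 32), (9927 / 10000), (6101 / 10000), (621 / 625),
    (6111 / 10000), (8081 / 2000), (673 / 1250), (2 / 5), (6313 / 2500), false⟩

/-- The piece on `[23 / 10, 13 / 5]`. -/
def piece12 : Piece :=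
  ⟨(23 / 10), (13 / 5), (1 / 32), (987 / 1000), (6503 / 10000), (9883 / 10000),
    (3259 / 5000), (21851 / 5000), (4779 / 10000), (2 / 5), (6313 / 2500), false⟩

/-- The piece on `[13 / 5, 59 / 20]`. -/
def piece13 : Piece :=
  ⟨(13 / 5), (59 / 20), (1 / 32), (1953 / 2000), (442 / 625), (9789 / 10000),
    (7103 / 10000), (23679 / 5000), (4259 / 10000), (2 / 5), (6313 / 2500), false⟩

/-- The piece on `[59 / 20, 33 / 10]`. -/
def piece14 : Piece :=
  ⟨(59 / 20), (33 / 10), (1 / 32), (9579 / 10000), (7867 / 10000), (601 / 625),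
    (317 / 400), (12839 / 2500), (3813 / 10000), (2 / 5), (6313 / 2500), false⟩

/-- The piece on `[33 / 10, 89 / 25]`. -/
def piece15 : Piece :=
  ⟨(33 / 10), (89 / 25), (1 / 32), (373 / 400), (8751 / 10000), (9369 / 10000),
    (1767 / 2000), (54899 / 10000), (3493 / 10000), (2 / 5), (6313 / 2500), false⟩

/-- The piece on `[89 / 25, 77 / 20]`. -/
def piece16 : Piece :=
  ⟨(89 / 25), (77 / 20), (1 / 32), (4477 / 5000), (9849 / 10000), (1127 / 1250),
    (10003 / 10000), (3633 / 625), (3247 / 10000), (2 / 5), (6313 / 2500), false⟩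

/-- The piece on `[77 / 20, 104 / 25]`. -/
def piece17 : Piece :=
  ⟨(77 / 20), (104 / 25), (1 / 32), (2079 / 2500), (11461 / 10000), (2099 / 2500),
    (11763 / 10000), (61683 / 10000), (603 / 2000), (2 / 5), (6313 / 2500), false⟩

/-- The piece on `[104 / 25, 219 / 50]`. -/
def piece18 : Piece :=
  ⟨(104 / 25), (219 / 50), (1 / 32), (3733 / 5000), (2667 / 2000), (1883 / 2500),
    (2759 / 2000), (64843 / 10000), (709 / 2500), (2 / 5), (6313 / 2500), false⟩

/-- The piece on `[219 / 50, 89 / 20]`. -/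
def piece19 : Piece :=
  ⟨(219 / 50), (89 / 20), (1 / 32), (1717 / 2500), (14543 / 10000), (3453 / 5000),
    (1877 / 1250), (33287 / 5000), (2747 / 10000), (2 / 5), (6313 / 2500), false⟩

/-- The piece on `[89 / 20, 113 / 25]`. -/
def piece20 : Piece :=
  ⟨(89 / 20), (113 / 25), (61 / 2000), (6667 / 10000), (7467 / 5000), (837 / 1250),
    (15397 / 10000), (16853 / 2500), (1353 / 5000), (2 / 5), (6313 / 2500), false⟩

/-- The piece on `[113 / 25, 23 / 5]`. -/
def piece21 : Piece :=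
  ⟨(113 / 25), (23 / 5), (59 / 2000), (6493 / 10000), (15269 / 10000), (407 / 625),
    (7851 / 5000), (68319 / 10000), (2663 / 10000), (2 / 5), (6313 / 2500), false⟩

/-- The piece on `[23 / 5, 467 / 100]`. -/
def piece22 : Piece :=
  ⟨(23 / 5), (467 / 100), (57 / 2000), (6331 / 10000), (1947 / 1250), (3171 / 5000),
    (319 / 200), (69213 / 10000), (1311 / 5000), (2 / 5), (6313 / 2500), false⟩

/-- The piece on `[467 / 100, 237 / 50]`. -/
def piece23 : Piece :=
  ⟨(467 / 100), (237 / 50), (111 / 4000), (153 / 250), (15969 / 10000), (3063 / 5000),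
    (3263 / 2000), (70067 / 10000), (323 / 1250), (2 / 5), (6313 / 2500), false⟩

/-- The piece on `[237 / 50, 241 / 50]`. -/
def piece24 : Piece :=
  ⟨(237 / 50), (241 / 50), (107 / 4000), (5953 / 10000), (8139 / 5000), (5953 / 10000),
    (663 / 400), (17743 / 2500), (509 / 2000), (2 / 5), (6313 / 2500), false⟩

/-- The piece on `[241 / 50, 49 / 10]`. -/
def piece25 : Piece :=
  ⟨(241 / 50), (49 / 10), (13 / 500), (5669 / 10000), (8397 / 5000), (1133 / 2000),
    (853 / 500), (7193 / 1000), (501 / 2000), (2 / 5), (6313 / 2500), false⟩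

/-- The piece on `[49 / 10, 249 / 50]`. -/
def piece26 : Piece :=
  ⟨(49 / 10), (249 / 50), (1 / 40), (2739 / 5000), (17137 / 10000), (342 / 625),
    (867 / 500), (72921 / 10000), (493 / 2000), (2 / 5), (6313 / 2500), false⟩

/-- The piece on `[249 / 50, 101 / 20]`. -/
def piece27 : Piece :=
  ⟨(249 / 50), (101 / 20), (97 / 4000), (5227 / 10000), (8791 / 5000), (261 / 500),
    (17737 / 10000), (14763 / 2000), (243 / 1000), (2 / 5), (6313 / 2500), false⟩

/-- The piece on `[101 / 20, 257 / 50]`. -/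
def piece28 : Piece :=
  ⟨(101 / 20), (257 / 50), (19 / 800), (4799 / 10000), (18329 / 10000), (1197 / 2500),
    (18481 / 10000), (7479 / 1000), (2393 / 10000), (2 / 5), (6313 / 2500), false⟩

/-- The piece on `[257 / 50, 261 / 50]`. -/
def piece29 : Piece :=
  ⟨(257 / 50), (261 / 50), (91 / 4000), (286 / 625), (2339 / 1250), (4569 / 10000),
    (4699 / 2500), (4739 / 625), (471 / 2000), (2 / 5), (6313 / 2500), false⟩

/-- The piece on `[261 / 50, 53 / 10]`. -/
def piece30 : Piece :=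
  ⟨(261 / 50), (53 / 10), (89 / 4000), (4113 / 10000), (3899 / 2000), (4107 / 10000),
    (9779 / 5000), (9601 / 1250), (29 / 125), (2 / 5), (6313 / 2500), false⟩

/-- The piece on `[53 / 10, 537 / 100]`. -/
def piece31 : Piece :=
  ⟨(53 / 10), (537 / 100), (43 / 2000), (959 / 2500), (9979 / 5000), (3833 / 10000),
    (19983 / 10000), (15541 / 2000), (2289 / 10000), (2 / 5), (6313 / 2500), false⟩

/-- The constants. -/
def data : Data where
  mlo := 32
  mhi := 48
  hk := (6361 / 5000)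
  g := (66 / 125)
  n0 := (2559 / 1000)
  n1 := (-11 / 20)
  g1 := (-209 / 50)
  a := (112 / 125)
  l0 := (-882 / 125)
  l1 := (7841 / 1000)
  phi := (13 / 20)
  v1 := (51 / 50)
  z2 := (3 / 5)
  ev := (21383 / 10000)
  low := true
  pieces := [piece1, piece2, piece3, piece4, piece5, piece6, piece7, piece8, piece9, piece10,
    piece11, piece12, piece13, piece14, piece15, piece16, piece17, piece18, piece19, piece20,
    piece21, piece22, piece23, piece24, piece25, piece26, piece27, piece28, piece29, piece30,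
    piece31]
  terms := [⟨0, 0, (506 / 125)⟩, ⟨1, 0, (-4269 / 500)⟩, ⟨2, 0, (1281 / 250)⟩, ⟨3, 0, (-107 / 250)⟩,
    ⟨4, 0, (39 / 500)⟩, ⟨5, 0, (-271 / 50000)⟩, ⟨2, 1, (-191 / 500)⟩, ⟨3, 2, (979 / 200)⟩,
    ⟨4, 3, (-4497 / 1000)⟩, ⟨5, 3, (56 / 125)⟩]

end Vale.Agent.P237.Petty.Cor.Mid32.Cell4
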