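import Vale.Agent.P237.Petty.Cor.Few.Mask
import Vale.Agent.P237.Petty.Cor.Mid50.Good
import Vale.Agent.P237.Petty.Cor.Mid32.Cell4.Data

/-!
# P237: certificates of the cell from `19 / (p + 2)` to `19 / 25`, `31 ≤ p ≤ 47`, part 3
-/

namespace Vale.Agent.P237.Petty.Cor.Mid32.Cell4

open Mid50 P100.Bernstein

def below10_lh : certify false
    (lowClaim ofRat data Corner.lh piece10 (.var 0) (.var 1) (.var 2))
    (box3 data piece10)
    (.split 2 .leaf (.split 2 .leaf (.split 2 .leaf (.split 2 (.split 2 .leaf .leaf) (.split
      1 (.split 0 (.split 2 .leaf (.split 2 .leaf .leaf)) (.split 2 .leaf .leaf)) (.split 0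
      (.split 2 .leaf (.split 2 .leaf .leaf)) (.split 2 .leaf .leaf))))))) = true := by
  refine Few.certify_of_quick ?_
  decide +kernel

def below10_hl : certify false
    (lowClaim ofRat data Corner.hl piece10 (.var 0) (.var 1) (.var 2))
    (box3 data piece10)
    (.split 2 .leaf (.split 2 .leaf (.split 2 .leaf (.split 2 (.split 0 .leaf .leaf) (.split
      1 (.split 0 (.split 2 .leaf (.split 2 .leaf .leaf)) (.split 2 .leaf .leaf)) (.split 0
      (.split 2 .leaf (.split 2 .leaf .leaf)) (.split 2 .leaf .leaf))))))) = true := by
  refine Few.certify_of_quick ?_
  decide +kernel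

def below10_hh : certify false
    (lowClaim ofRat data Corner.hh piece10 (.var 0) (.var 1) (.var 2))
    (box3 data piece10)
    (.split 2 .leaf (.split 2 .leaf (.split 2 .leaf (.split 2 (.split 0 .leaf .leaf) (.split
      1 (.split 0 (.split 2 .leaf (.split 2 .leaf .leaf)) (.split 2 .leaf .leaf)) (.split 0
      (.split 2 .leaf (.split 2 .leaf .leaf)) (.split 2 .leaf .leaf))))))) = true := by
  refine Few.certify_of_quick ?_
  decide +kernel

def top11 : certify false
    (topExpr piece11)
    (topBox data piece11)
    (.split 0 .leaf .leaf) = true := by
  refine Few.certify_of_quick ?_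
  decide +kernel

def low11 : certify false
    (loExpr piece11)
    (zBox data piece11)
    (.split 0 .leaf .leaf) = true := by
  refine Few.certify_of_quick ?_
  decide +kernel

def high11 : certify false
    (hiExpr piece11)
    (zBox data piece11)
    .leaf = true := by
  refine Few.certify_of_quick ?_
  decide +kernel

def far11_ll : certify false
    (farClaim ofRat data Corner.ll piece11 (.var 0) (.var 1) (.var 2))
    (box3 data piece11)
    .leaf = true := by
  refine Few.certify_of_quick ?_
  decide +kernel

def far11_lh : certify false
    (farClaim ofRat data Corner.lh piece11 (.var 0) (.var 1) (.var 2))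
    (box3 data piece11)
    .leaf = true := by
  refine Few.certify_of_quick ?_
  decide +kernel

def far11_hl : certify false
    (farClaim ofRat data Corner.hl piece11 (.var 0) (.var 1) (.var 2))
    (box3 data piece11)
    .leaf = true := by
  refine Few.certify_of_quick ?_
  decide +kernel

def far11_hh : certify false
    (farClaim ofRat data Corner.hh piece11 (.var 0) (.var 1) (.var 2))
    (box3 data piece11)
    .leaf = true := by
  refine Few.certify_of_quick ?_
  decide +kernel

def below11_ll : certify false
    (lowClaim ofRat data Corner.ll piece11 (.var 0) (.var 1) (.var 2))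
    (box3 data piece11)
    (.split 2 .leaf (.split 2 .leaf (.split 2 .leaf (.split 2 (.split 1 .leaf .leaf)
      .leaf)))) = true := by
  refine Few.certify_of_quick ?_
  decide +kernel

def below11_lh : certify false
    (lowClaim ofRat data Corner.lh piece11 (.var 0) (.var 1) (.var 2))
    (box3 data piece11)
    (.split 2 .leaf (.split 2 .leaf (.split 2 .leaf (.split 2 (.split 0 .leaf .leaf)
      .leaf)))) = true := by
  refine Few.certify_of_quick ?_
  decide +kernel

def below11_hl : certify false
    (lowClaim ofRat data Corner.hl piece11 (.var 0) (.var 1) (.var 2))
    (box3 data piece11)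
    (.split 2 .leaf (.split 2 .leaf (.split 2 .leaf (.split 2 .leaf .leaf)))) = true := by
  refine Few.certify_of_quick ?_
  decide +kernel

def below11_hh : certify false
    (lowClaim ofRat data Corner.hh piece11 (.var 0) (.var 1) (.var 2))
    (box3 data piece11)
    (.split 2 .leaf (.split 2 .leaf (.split 2 .leaf (.split 2 .leaf .leaf)))) = true := by
  refine Few.certify_of_quick ?_
  decide +kernel

def top12 : certify false
    (topExpr piece12)
    (topBox data piece12)
    (.split 0 .leaf .leaf) = true := by
  refine Few.certify_of_quick ?_
  decide +kernel

def low12 : certify false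
    (loExpr piece12)
    (zBox data piece12)
    (.split 0 .leaf .leaf) = true := by
  refine Few.certify_of_quick ?_
  decide +kernel

def high12 : certify false
    (hiExpr piece12)
    (zBox data piece12)
    .leaf = true := by
  refine Few.certify_of_quick ?_
  decide +kernel

def far12_ll : certify false
    (farClaim ofRat data Corner.ll piece12 (.var 0) (.var 1) (.var 2))
    (box3 data piece12)
    .leaf = true := by
  refine Few.certify_of_quick ?_
  decide +kernel

def far12_lh : certify false
    (farClaim ofRat data Corner.lh piece12 (.var 0) (.var 1) (.var 2))
    (box3 data piece12)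
    .leaf = true := by
  refine Few.certify_of_quick ?_
  decide +kernel

def far12_hl : certify false
    (farClaim ofRat data Corner.hl piece12 (.var 0) (.var 1) (.var 2))
    (box3 data piece12)
    .leaf = true := by
  refine Few.certify_of_quick ?_
  decide +kernel

def far12_hh : certify false
    (farClaim ofRat data Corner.hh piece12 (.var 0) (.var 1) (.var 2))
    (box3 data piece12)
    .leaf = true := by
  refine Few.certify_of_quick ?_
  decide +kernel

def below12_ll : certify false
    (lowClaim ofRat data Corner.ll piece12 (.var 0) (.var 1) (.var 2))
    (box3 data piece12)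
    (.split 2 .leaf (.split 2 .leaf (.split 2 .leaf (.split 2 .leaf .leaf)))) = true := by
  refine Few.certify_of_quick ?_
  decide +kernel

def below12_lh : certify false
    (lowClaim ofRat data Corner.lh piece12 (.var 0) (.var 1) (.var 2))
    (box3 data piece12)
    (.split 2 .leaf (.split 2 .leaf (.split 2 .leaf (.split 2 .leaf .leaf)))) = true := by
  refine Few.certify_of_quick ?_
  decide +kernel

def below12_hl : certify false
    (lowClaim ofRat data Corner.hl piece12 (.var 0) (.var 1) (.var 2))
    (box3 data piece12)
    (.split 2 .leaf (.split 2 .leaf (.split 2 .leaf (.split 2 .leaf .leaf)))) = true := by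
  refine Few.certify_of_quick ?_
  decide +kernel

def below12_hh : certify false
    (lowClaim ofRat data Corner.hh piece12 (.var 0) (.var 1) (.var 2))
    (box3 data piece12)
    (.split 2 .leaf (.split 2 .leaf (.split 2 .leaf (.split 2 .leaf .leaf)))) = true := by
  refine Few.certify_of_quick ?_
  decide +kernel

def top13 : certify false
    (topExpr piece13)
    (topBox data piece13)
    (.split 0 .leaf .leaf) = true := by
  refine Few.certify_of_quick ?_
  decide +kernel

def low13 : certify false
    (loExpr piece13)
    (zBox data piece13)
    (.split 0 .leaf .leaf) = true := by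
  refine Few.certify_of_quick ?_
  decide +kernel

def high13 : certify false
    (hiExpr piece13)
    (zBox data piece13)
    .leaf = true := by
  refine Few.certify_of_quick ?_
  decide +kernel

def far13_ll : certify false
    (farClaim ofRat data Corner.ll piece13 (.var 0) (.var 1) (.var 2))
    (box3 data piece13)
    .leaf = true := by
  refine Few.certify_of_quick ?_
  decide +kernel

def far13_lh : certify false
    (farClaim ofRat data Corner.lh piece13 (.var 0) (.var 1) (.var 2))
    (box3 data piece13)
    .leaf = true := by
  refine Few.certify_of_quick ?_
  decide +kernel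

def far13_hl : certify false
    (farClaim ofRat data Corner.hl piece13 (.var 0) (.var 1) (.var 2))
    (box3 data piece13)
    .leaf = true := by
  refine Few.certify_of_quick ?_
  decide +kernel

def far13_hh : certify false
    (farClaim ofRat data Corner.hh piece13 (.var 0) (.var 1) (.var 2))
    (box3 data piece13)
    .leaf = true := by
  refine Few.certify_of_quick ?_
  decide +kernel

def below13_ll : certify false
    (lowClaim ofRat data Corner.ll piece13 (.var 0) (.var 1) (.var 2))
    (box3 data piece13)
    (.split 2 .leaf (.split 2 .leaf (.split 2 .leaf .leaf))) = true := by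
  refine Few.certify_of_quick ?_
  decide +kernel

def below13_lh : certify false
    (lowClaim ofRat data Corner.lh piece13 (.var 0) (.var 1) (.var 2))
    (box3 data piece13)
    (.split 2 .leaf (.split 2 .leaf (.split 2 (.split 2 .leaf .leaf) .leaf))) = true := by
  refine Few.certify_of_quick ?_
  decide +kernel

def below13_hl : certify false
    (lowClaim ofRat data Corner.hl piece13 (.var 0) (.var 1) (.var 2))
    (box3 data piece13)
    (.split 2 .leaf (.split 2 .leaf (.split 2 .leaf .leaf))) = true := by
  refine Few.certify_of_quick ?_
  decide +kernel

def below13_hh : certify false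
    (lowClaim ofRat data Corner.hh piece13 (.var 0) (.var 1) (.var 2))
    (box3 data piece13)
    (.split 2 .leaf (.split 2 .leaf (.split 2 .leaf .leaf))) = true := by
  refine Few.certify_of_quick ?_
  decide +kernel

def top14 : certify false
    (topExpr piece14)
    (topBox data piece14)
    (.split 0 .leaf .leaf) = true := by
  refine Few.certify_of_quick ?_
  decide +kernel

def low14 : certify false
    (loExpr piece14)
    (zBox data piece14)
    (.split 0 .leaf .leaf) = true := by
  refine Few.certify_of_quick ?_
  decide +kernel

def high14 : certify false
    (hiExpr piece14)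
    (zBox data piece14)
    .leaf = true := by
  refine Few.certify_of_quick ?_
  decide +kernel

def far14_ll : certify false
    (farClaim ofRat data Corner.ll piece14 (.var 0) (.var 1) (.var 2))
    (box3 data piece14)
    .leaf = true := by
  refine Few.certify_of_quick ?_
  decide +kernel

end Vale.Agent.P237.Petty.Cor.Mid32.Cell4
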