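import Vale.Agent.P237.Petty.Cor.Few.Mask
import Vale.Agent.P237.Petty.Cor.Mid50.Good
import Vale.Agent.P237.Petty.Cor.Mid32.Cell4.Data

/-!
# P237: certificates of the cell from `19 / (p + 2)` to `19 / 25`, `31 ≤ p ≤ 47`, part 4
-/

namespace Vale.Agent.P237.Petty.Cor.Mid32.Cell4

open Mid50 P100.Bernstein

def far14_lh : certify false
    (farClaim ofRat data Corner.lh piece14 (.var 0) (.var 1) (.var 2))
    (box3 data piece14)
    .leaf = true := by
  refine Few.certify_of_quick ?_
  decide +kernel

def far14_hl : certify false
    (farClaim ofRat data Corner.hl piece14 (.var 0) (.var 1) (.var 2))
    (box3 data piece14)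
    .leaf = true := by
  refine Few.certify_of_quick ?_
  decide +kernel

def far14_hh : certify false
    (farClaim ofRat data Corner.hh piece14 (.var 0) (.var 1) (.var 2))
    (box3 data piece14)
    .leaf = true := by
  refine Few.certify_of_quick ?_
  decide +kernel

def below14_ll : certify false
    (lowClaim ofRat data Corner.ll piece14 (.var 0) (.var 1) (.var 2))
    (box3 data piece14)
    (.split 2 .leaf (.split 2 .leaf (.split 2 .leaf .leaf))) = true := by
  refine Few.certify_of_quick ?_
  decide +kernel

def below14_lh : certify false
    (lowClaim ofRat data Corner.lh piece14 (.var 0) (.var 1) (.var 2))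
    (box3 data piece14)
    (.split 2 .leaf (.split 2 .leaf (.split 2 .leaf .leaf))) = true := by
  refine Few.certify_of_quick ?_
  decide +kernel

def below14_hl : certify false
    (lowClaim ofRat data Corner.hl piece14 (.var 0) (.var 1) (.var 2))
    (box3 data piece14)
    (.split 2 .leaf (.split 2 .leaf (.split 2 .leaf .leaf))) = true := by
  refine Few.certify_of_quick ?_
  decide +kernel

def below14_hh : certify false
    (lowClaim ofRat data Corner.hh piece14 (.var 0) (.var 1) (.var 2))
    (box3 data piece14)
    (.split 2 .leaf (.split 2 .leaf (.split 2 .leaf .leaf))) = true := by
  refine Few.certify_of_quick ?_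
  decide +kernel

def top15 : certify false
    (topExpr piece15)
    (topBox data piece15)
    (.split 0 .leaf .leaf) = true := by
  refine Few.certify_of_quick ?_
  decide +kernel

def low15 : certify false
    (loExpr piece15)
    (zBox data piece15)
    (.split 0 .leaf .leaf) = true := by
  refine Few.certify_of_quick ?_
  decide +kernel

def high15 : certify false
    (hiExpr piece15)
    (zBox data piece15)
    .leaf = true := by
  refine Few.certify_of_quick ?_
  decide +kernel

def far15_ll : certify false
    (farClaim ofRat data Corner.ll piece15 (.var 0) (.var 1) (.var 2))
    (box3 data piece15)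
    .leaf = true := by
  refine Few.certify_of_quick ?_
  decide +kernel

def far15_lh : certify false
    (farClaim ofRat data Corner.lh piece15 (.var 0) (.var 1) (.var 2))
    (box3 data piece15)
    .leaf = true := by
  refine Few.certify_of_quick ?_
  decide +kernel

def far15_hl : certify false
    (farClaim ofRat data Corner.hl piece15 (.var 0) (.var 1) (.var 2))
    (box3 data piece15)
    .leaf = true := by
  refine Few.certify_of_quick ?_
  decide +kernel

def far15_hh : certify false
    (farClaim ofRat data Corner.hh piece15 (.var 0) (.var 1) (.var 2))
    (box3 data piece15)
    .leaf = true := by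
  refine Few.certify_of_quick ?_
  decide +kernel

def below15_ll : certify false
    (lowClaim ofRat data Corner.ll piece15 (.var 0) (.var 1) (.var 2))
    (box3 data piece15)
    (.split 2 .leaf (.split 2 .leaf .leaf)) = true := by
  refine Few.certify_of_quick ?_
  decide +kernel

def below15_lh : certify false
    (lowClaim ofRat data Corner.lh piece15 (.var 0) (.var 1) (.var 2))
    (box3 data piece15)
    (.split 2 .leaf (.split 2 .leaf .leaf)) = true := by
  refine Few.certify_of_quick ?_
  decide +kernel

def below15_hl : certify false
    (lowClaim ofRat data Corner.hl piece15 (.var 0) (.var 1) (.var 2))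
    (box3 data piece15)
    (.split 2 .leaf (.split 2 .leaf .leaf)) = true := by
  refine Few.certify_of_quick ?_
  decide +kernel

def below15_hh : certify false
    (lowClaim ofRat data Corner.hh piece15 (.var 0) (.var 1) (.var 2))
    (box3 data piece15)
    (.split 2 .leaf (.split 2 .leaf .leaf)) = true := by
  refine Few.certify_of_quick ?_
  decide +kernel

def top16 : certify false
    (topExpr piece16)
    (topBox data piece16)
    (.split 0 .leaf .leaf) = true := by
  refine Few.certify_of_quick ?_
  decide +kernel

def low16 : certify false
    (loExpr piece16)
    (zBox data piece16)
    (.split 0 .leaf .leaf) = true := by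
  refine Few.certify_of_quick ?_
  decide +kernel

def high16 : certify false
    (hiExpr piece16)
    (zBox data piece16)
    .leaf = true := by
  refine Few.certify_of_quick ?_
  decide +kernel

def far16_ll : certify false
    (farClaim ofRat data Corner.ll piece16 (.var 0) (.var 1) (.var 2))
    (box3 data piece16)
    .leaf = true := by
  refine Few.certify_of_quick ?_
  decide +kernel

def far16_lh : certify false
    (farClaim ofRat data Corner.lh piece16 (.var 0) (.var 1) (.var 2))
    (box3 data piece16)
    .leaf = true := by
  refine Few.certify_of_quick ?_
  decide +kernel

def far16_hl : certify false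
    (farClaim ofRat data Corner.hl piece16 (.var 0) (.var 1) (.var 2))
    (box3 data piece16)
    .leaf = true := by
  refine Few.certify_of_quick ?_
  decide +kernel

def far16_hh : certify false
    (farClaim ofRat data Corner.hh piece16 (.var 0) (.var 1) (.var 2))
    (box3 data piece16)
    .leaf = true := by
  refine Few.certify_of_quick ?_
  decide +kernel

def below16_ll : certify false
    (lowClaim ofRat data Corner.ll piece16 (.var 0) (.var 1) (.var 2))
    (box3 data piece16)
    (.split 2 .leaf .leaf) = true := by
  refine Few.certify_of_quick ?_
  decide +kernel

def below16_lh : certify false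
    (lowClaim ofRat data Corner.lh piece16 (.var 0) (.var 1) (.var 2))
    (box3 data piece16)
    (.split 2 .leaf .leaf) = true := by
  refine Few.certify_of_quick ?_
  decide +kernel

def below16_hl : certify false
    (lowClaim ofRat data Corner.hl piece16 (.var 0) (.var 1) (.var 2))
    (box3 data piece16)
    (.split 2 .leaf .leaf) = true := by
  refine Few.certify_of_quick ?_
  decide +kernel

def below16_hh : certify false
    (lowClaim ofRat data Corner.hh piece16 (.var 0) (.var 1) (.var 2))
    (box3 data piece16)
    (.split 2 .leaf .leaf) = true := by
  refine Few.certify_of_quick ?_
  decide +kernel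

def top17 : certify false
    (topExpr piece17)
    (topBox data piece17)
    (.split 0 .leaf .leaf) = true := by
  refine Few.certify_of_quick ?_
  decide +kernel

def low17 : certify false
    (loExpr piece17)
    (zBox data piece17)
    (.split 0 .leaf .leaf) = true := by
  refine Few.certify_of_quick ?_
  decide +kernel

def high17 : certify false
    (hiExpr piece17)
    (zBox data piece17)
    .leaf = true := by
  refine Few.certify_of_quick ?_
  decide +kernel

def far17_ll : certify false
    (farClaim ofRat data Corner.ll piece17 (.var 0) (.var 1) (.var 2))
    (box3 data piece17)
    .leaf = true := by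
  refine Few.certify_of_quick ?_
  decide +kernel

def far17_lh : certify false
    (farClaim ofRat data Corner.lh piece17 (.var 0) (.var 1) (.var 2))
    (box3 data piece17)
    .leaf = true := by
  refine Few.certify_of_quick ?_
  decide +kernel

def far17_hl : certify false
    (farClaim ofRat data Corner.hl piece17 (.var 0) (.var 1) (.var 2))
    (box3 data piece17)
    .leaf = true := by
  refine Few.certify_of_quick ?_
  decide +kernel

def far17_hh : certify false
    (farClaim ofRat data Corner.hh piece17 (.var 0) (.var 1) (.var 2))
    (box3 data piece17)
    .leaf = true := by
  refine Few.certify_of_quick ?_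
  decide +kernel

def below17_ll : certify false
    (lowClaim ofRat data Corner.ll piece17 (.var 0) (.var 1) (.var 2))
    (box3 data piece17)
    .leaf = true := by
  refine Few.certify_of_quick ?_
  decide +kernel

def below17_lh : certify false
    (lowClaim ofRat data Corner.lh piece17 (.var 0) (.var 1) (.var 2))
    (box3 data piece17)
    .leaf = true := by
  refine Few.certify_of_quick ?_
  decide +kernel

def below17_hl : certify false
    (lowClaim ofRat data Corner.hl piece17 (.var 0) (.var 1) (.var 2))
    (box3 data piece17)
    .leaf = true := by
  refine Few.certify_of_quick ?_
  decide +kernel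

def below17_hh : certify false
    (lowClaim ofRat data Corner.hh piece17 (.var 0) (.var 1) (.var 2))
    (box3 data piece17)
    .leaf = true := by
  refine Few.certify_of_quick ?_
  decide +kernel

def top18 : certify false
    (topExpr piece18)
    (topBox data piece18)
    (.split 0 .leaf .leaf) = true := by
  refine Few.certify_of_quick ?_
  decide +kernel

def low18 : certify false
    (loExpr piece18)
    (zBox data piece18)
    (.split 0 .leaf .leaf) = true := by
  refine Few.certify_of_quick ?_
  decide +kernel

def high18 : certify false
    (hiExpr piece18)
    (zBox data piece18)
    .leaf = true := by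
  refine Few.certify_of_quick ?_
  decide +kernel

def far18_ll : certify false
    (farClaim ofRat data Corner.ll piece18 (.var 0) (.var 1) (.var 2))
    (box3 data piece18)
    .leaf = true := by
  refine Few.certify_of_quick ?_
  decide +kernel

def far18_lh : certify false
    (farClaim ofRat data Corner.lh piece18 (.var 0) (.var 1) (.var 2))
    (box3 data piece18)
    .leaf = true := by
  refine Few.certify_of_quick ?_
  decide +kernel

def far18_hl : certify false
    (farClaim ofRat data Corner.hl piece18 (.var 0) (.var 1) (.var 2))
    (box3 data piece18)
    .leaf = true := by
  refine Few.certify_of_quick ?_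
  decide +kernel

def far18_hh : certify false
    (farClaim ofRat data Corner.hh piece18 (.var 0) (.var 1) (.var 2))
    (box3 data piece18)
    .leaf = true := by
  refine Few.certify_of_quick ?_
  decide +kernel

def below18_ll : certify false
    (lowClaim ofRat data Corner.ll piece18 (.var 0) (.var 1) (.var 2))
    (box3 data piece18)
    .leaf = true := by
  refine Few.certify_of_quick ?_
  decide +kernel

def below18_lh : certify false
    (lowClaim ofRat data Corner.lh piece18 (.var 0) (.var 1) (.var 2))
    (box3 data piece18)
    .leaf = true := by
  refine Few.certify_of_quick ?_
  decide +kernel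

def below18_hl : certify false
    (lowClaim ofRat data Corner.hl piece18 (.var 0) (.var 1) (.var 2))
    (box3 data piece18)
    .leaf = true := by
  refine Few.certify_of_quick ?_
  decide +kernel

def below18_hh : certify false
    (lowClaim ofRat data Corner.hh piece18 (.var 0) (.var 1) (.var 2))
    (box3 data piece18)
    .leaf = true := by
  refine Few.certify_of_quick ?_
  decide +kernel

def top19 : certify false
    (topExpr piece19)
    (topBox data piece19)
    (.split 0 .leaf .leaf) = true := by
  refine Few.certify_of_quick ?_
  decide +kernel

def low19 : certify false
    (loExpr piece19)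
    (zBox data piece19)
    (.split 0 .leaf (.split 0 (.split 0 (.split 0 .leaf .leaf) .leaf) .leaf)) = true := by
  refine Few.certify_of_quick ?_
  decide +kernel

def high19 : certify false
    (hiExpr piece19)
    (zBox data piece19)
    .leaf = true := by
  refine Few.certify_of_quick ?_
  decide +kernel

def far19_ll : certify false
    (farClaim ofRat data Corner.ll piece19 (.var 0) (.var 1) (.var 2))
    (box3 data piece19)
    .leaf = true := by
  refine Few.certify_of_quick ?_
  decide +kernel

def far19_lh : certify false
    (farClaim ofRat data Corner.lh piece19 (.var 0) (.var 1) (.var 2))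
    (box3 data piece19)
    .leaf = true := by
  refine Few.certify_of_quick ?_
  decide +kernel

def far19_hl : certify false
    (farClaim ofRat data Corner.hl piece19 (.var 0) (.var 1) (.var 2))
    (box3 data piece19)
    .leaf = true := by
  refine Few.certify_of_quick ?_
  decide +kernel

def far19_hh : certify false
    (farClaim ofRat data Corner.hh piece19 (.var 0) (.var 1) (.var 2))
    (box3 data piece19)
    (.split 2 .leaf .leaf) = true := by
  refine Few.certify_of_quick ?_
  decide +kernel

def below19_ll : certify false
    (lowClaim ofRat data Corner.ll piece19 (.var 0) (.var 1) (.var 2))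
    (box3 data piece19)
    .leaf = true := by
  refine Few.certify_of_quick ?_
  decide +kernel

def below19_lh : certify false
    (lowClaim ofRat data Corner.lh piece19 (.var 0) (.var 1) (.var 2))
    (box3 data piece19)
    .leaf = true := by
  refine Few.certify_of_quick ?_
  decide +kernel

def below19_hl : certify false
    (lowClaim ofRat data Corner.hl piece19 (.var 0) (.var 1) (.var 2))
    (box3 data piece19)
    .leaf = true := by
  refine Few.certify_of_quick ?_
  decide +kernel

def below19_hh : certify false
    (lowClaim ofRat data Corner.hh piece19 (.var 0) (.var 1) (.var 2))
    (box3 data piece19)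
    .leaf = true := by
  refine Few.certify_of_quick ?_
  decide +kernel

def top20 : certify false
    (topExpr piece20)
    (topBox data piece20)
    (.split 0 .leaf .leaf) = true := by
  refine Few.certify_of_quick ?_
  decide +kernel

def low20 : certify false
    (loExpr piece20)
    (zBox data piece20)
    (.split 0 .leaf (.split 0 (.split 0 (.split 0 .leaf .leaf) .leaf) .leaf)) = true := by
  refine Few.certify_of_quick ?_
  decide +kernel

def high20 : certify false
    (hiExpr piece20)
    (zBox data piece20)
    .leaf = true := by
  refine Few.certify_of_quick ?_
  decide +kernel

def far20_ll : certify false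
    (farClaim ofRat data Corner.ll piece20 (.var 0) (.var 1) (.var 2))
    (box3 data piece20)
    .leaf = true := by
  refine Few.certify_of_quick ?_
  decide +kernel

def far20_lh : certify false
    (farClaim ofRat data Corner.lh piece20 (.var 0) (.var 1) (.var 2))
    (box3 data piece20)
    .leaf = true := by
  refine Few.certify_of_quick ?_
  decide +kernel

def far20_hl : certify false
    (farClaim ofRat data Corner.hl piece20 (.var 0) (.var 1) (.var 2))
    (box3 data piece20)
    .leaf = true := by
  refine Few.certify_of_quick ?_
  decide +kernel

def far20_hh : certify false
    (farClaim ofRat data Corner.hh piece20 (.var 0) (.var 1) (.var 2))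
    (box3 data piece20)
    .leaf = true := by
  refine Few.certify_of_quick ?_
  decide +kernel

def below20_ll : certify false
    (lowClaim ofRat data Corner.ll piece20 (.var 0) (.var 1) (.var 2))
    (box3 data piece20)
    .leaf = true := by
  refine Few.certify_of_quick ?_
  decide +kernel

def below20_lh : certify false
    (lowClaim ofRat data Corner.lh piece20 (.var 0) (.var 1) (.var 2))
    (box3 data piece20)
    .leaf = true := by
  refine Few.certify_of_quick ?_
  decide +kernel

def below20_hl : certify false
    (lowClaim ofRat data Corner.hl piece20 (.var 0) (.var 1) (.var 2))
    (box3 data piece20)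
    .leaf = true := by
  refine Few.certify_of_quick ?_
  decide +kernel

def below20_hh : certify false
    (lowClaim ofRat data Corner.hh piece20 (.var 0) (.var 1) (.var 2))
    (box3 data piece20)
    .leaf = true := by
  refine Few.certify_of_quick ?_
  decide +kernel

def top21 : certify false
    (topExpr piece21)
    (topBox data piece21)
    (.split 0 .leaf .leaf) = true := by
  refine Few.certify_of_quick ?_
  decide +kernel

def low21 : certify false
    (loExpr piece21)
    (zBox data piece21)
    (.split 0 .leaf (.split 0 (.split 0 (.split 0 .leaf .leaf) .leaf) .leaf)) = true := by
  refine Few.certify_of_quick ?_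
  decide +kernel

def high21 : certify false
    (hiExpr piece21)
    (zBox data piece21)
    .leaf = true := by
  refine Few.certify_of_quick ?_
  decide +kernel

def far21_ll : certify false
    (farClaim ofRat data Corner.ll piece21 (.var 0) (.var 1) (.var 2))
    (box3 data piece21)
    .leaf = true := by
  refine Few.certify_of_quick ?_
  decide +kernel

def far21_lh : certify false
    (farClaim ofRat data Corner.lh piece21 (.var 0) (.var 1) (.var 2))
    (box3 data piece21)
    .leaf = true := by
  refine Few.certify_of_quick ?_
  decide +kernel

def far21_hl : certify false
    (farClaim ofRat data Corner.hl piece21 (.var 0) (.var 1) (.var 2))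
    (box3 data piece21)
    .leaf = true := by
  refine Few.certify_of_quick ?_
  decide +kernel

def far21_hh : certify false
    (farClaim ofRat data Corner.hh piece21 (.var 0) (.var 1) (.var 2))
    (box3 data piece21)
    .leaf = true := by
  refine Few.certify_of_quick ?_
  decide +kernel

def below21_ll : certify false
    (lowClaim ofRat data Corner.ll piece21 (.var 0) (.var 1) (.var 2))
    (box3 data piece21)
    .leaf = true := by
  refine Few.certify_of_quick ?_
  decide +kernel

def below21_lh : certify false
    (lowClaim ofRat data Corner.lh piece21 (.var 0) (.var 1) (.var 2))
    (box3 data piece21)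
    .leaf = true := by
  refine Few.certify_of_quick ?_
  decide +kernel

def below21_hl : certify false
    (lowClaim ofRat data Corner.hl piece21 (.var 0) (.var 1) (.var 2))
    (box3 data piece21)
    .leaf = true := by
  refine Few.certify_of_quick ?_
  decide +kernel

def below21_hh : certify false
    (lowClaim ofRat data Corner.hh piece21 (.var 0) (.var 1) (.var 2))
    (box3 data piece21)
    .leaf = true := by
  refine Few.certify_of_quick ?_
  decide +kernel

def top22 : certify false
    (topExpr piece22)
    (topBox data piece22)
    (.split 0 .leaf .leaf) = true := by
  refine Few.certify_of_quick ?_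
  decide +kernel

def low22 : certify false
    (loExpr piece22)
    (zBox data piece22)
    (.split 0 .leaf (.split 0 (.split 0 (.split 0 .leaf .leaf) .leaf) .leaf)) = true := by
  refine Few.certify_of_quick ?_
  decide +kernel

def high22 : certify false
    (hiExpr piece22)
    (zBox data piece22)
    .leaf = true := by
  refine Few.certify_of_quick ?_
  decide +kernel

def far22_ll : certify false
    (farClaim ofRat data Corner.ll piece22 (.var 0) (.var 1) (.var 2))
    (box3 data piece22)
    .leaf = true := by
  refine Few.certify_of_quick ?_
  decide +kernel

def far22_lh : certify false
    (farClaim ofRat data Corner.lh piece22 (.var 0) (.var 1) (.var 2))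
    (box3 data piece22)
    .leaf = true := by
  refine Few.certify_of_quick ?_
  decide +kernel

def far22_hl : certify false
    (farClaim ofRat data Corner.hl piece22 (.var 0) (.var 1) (.var 2))
    (box3 data piece22)
    .leaf = true := by
  refine Few.certify_of_quick ?_
  decide +kernel

def far22_hh : certify false
    (farClaim ofRat data Corner.hh piece22 (.var 0) (.var 1) (.var 2))
    (box3 data piece22)
    .leaf = true := by
  refine Few.certify_of_quick ?_
  decide +kernel

def below22_ll : certify false
    (lowClaim ofRat data Corner.ll piece22 (.var 0) (.var 1) (.var 2))
    (box3 data piece22)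
    .leaf = true := by
  refine Few.certify_of_quick ?_
  decide +kernel

def below22_lh : certify false
    (lowClaim ofRat data Corner.lh piece22 (.var 0) (.var 1) (.var 2))
    (box3 data piece22)
    .leaf = true := by
  refine Few.certify_of_quick ?_
  decide +kernel

def below22_hl : certify false
    (lowClaim ofRat data Corner.hl piece22 (.var 0) (.var 1) (.var 2))
    (box3 data piece22)
    .leaf = true := by
  refine Few.certify_of_quick ?_
  decide +kernel

def below22_hh : certify false
    (lowClaim ofRat data Corner.hh piece22 (.var 0) (.var 1) (.var 2))
    (box3 data piece22)
    .leaf = true := by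
  refine Few.certify_of_quick ?_
  decide +kernel

def top23 : certify false
    (topExpr piece23)
    (topBox data piece23)
    (.split 0 .leaf .leaf) = true := by
  refine Few.certify_of_quick ?_
  decide +kernel

def low23 : certify false
    (loExpr piece23)
    (zBox data piece23)
    (.split 0 .leaf (.split 0 (.split 0 (.split 0 .leaf .leaf) .leaf) .leaf)) = true := by
  refine Few.certify_of_quick ?_
  decide +kernel

def high23 : certify false
    (hiExpr piece23)
    (zBox data piece23)
    .leaf = true := by
  refine Few.certify_of_quick ?_
  decide +kernel

def far23_ll : certify false
    (farClaim ofRat data Corner.ll piece23 (.var 0) (.var 1) (.var 2))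
    (box3 data piece23)
    .leaf = true := by
  refine Few.certify_of_quick ?_
  decide +kernel

def far23_lh : certify false
    (farClaim ofRat data Corner.lh piece23 (.var 0) (.var 1) (.var 2))
    (box3 data piece23)
    .leaf = true := by
  refine Few.certify_of_quick ?_
  decide +kernel

def far23_hl : certify false
    (farClaim ofRat data Corner.hl piece23 (.var 0) (.var 1) (.var 2))
    (box3 data piece23)
    .leaf = true := by
  refine Few.certify_of_quick ?_
  decide +kernel

def far23_hh : certify false
    (farClaim ofRat data Corner.hh piece23 (.var 0) (.var 1) (.var 2))
    (box3 data piece23)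
    .leaf = true := by
  refine Few.certify_of_quick ?_
  decide +kernel

def below23_ll : certify false
    (lowClaim ofRat data Corner.ll piece23 (.var 0) (.var 1) (.var 2))
    (box3 data piece23)
    .leaf = true := by
  refine Few.certify_of_quick ?_
  decide +kernel

def below23_lh : certify false
    (lowClaim ofRat data Corner.lh piece23 (.var 0) (.var 1) (.var 2))
    (box3 data piece23)
    .leaf = true := by
  refine Few.certify_of_quick ?_
  decide +kernel

def below23_hl : certify false
    (lowClaim ofRat data Corner.hl piece23 (.var 0) (.var 1) (.var 2))
    (box3 data piece23)
    .leaf = true := by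
  refine Few.certify_of_quick ?_
  decide +kernel

def below23_hh : certify false
    (lowClaim ofRat data Corner.hh piece23 (.var 0) (.var 1) (.var 2))
    (box3 data piece23)
    .leaf = true := by
  refine Few.certify_of_quick ?_
  decide +kernel

def top24 : certify false
    (topExpr piece24)
    (topBox data piece24)
    (.split 0 .leaf .leaf) = true := by
  refine Few.certify_of_quick ?_
  decide +kernel

def low24 : certify false
    (loExpr piece24)
    (zBox data piece24)
    (.split 0 .leaf (.split 0 (.split 0 (.split 0 .leaf .leaf) .leaf) .leaf)) = true := by
  refine Few.certify_of_quick ?_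
  decide +kernel

def high24 : certify false
    (hiExpr piece24)
    (zBox data piece24)
    .leaf = true := by
  refine Few.certify_of_quick ?_
  decide +kernel

def far24_ll : certify false
    (farClaim ofRat data Corner.ll piece24 (.var 0) (.var 1) (.var 2))
    (box3 data piece24)
    .leaf = true := by
  refine Few.certify_of_quick ?_
  decide +kernel

def far24_lh : certify false
    (farClaim ofRat data Corner.lh piece24 (.var 0) (.var 1) (.var 2))
    (box3 data piece24)
    .leaf = true := by
  refine Few.certify_of_quick ?_
  decide +kernel

def far24_hl : certify false
    (farClaim ofRat data Corner.hl piece24 (.var 0) (.var 1) (.var 2))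
    (box3 data piece24)
    .leaf = true := by
  refine Few.certify_of_quick ?_
  decide +kernel

def far24_hh : certify false
    (farClaim ofRat data Corner.hh piece24 (.var 0) (.var 1) (.var 2))
    (box3 data piece24)
    .leaf = true := by
  refine Few.certify_of_quick ?_
  decide +kernel

def below24_ll : certify false
    (lowClaim ofRat data Corner.ll piece24 (.var 0) (.var 1) (.var 2))
    (box3 data piece24)
    .leaf = true := by
  refine Few.certify_of_quick ?_
  decide +kernel

end Vale.Agent.P237.Petty.Cor.Mid32.Cell4
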