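import Vale.Agent.P237.Petty.Cor.Few.Mask
import Vale.Agent.P237.Petty.Cor.Mid50.Good
import Vale.Agent.P237.Petty.Cor.Mid32.Cell4.Data

/-!
# P237: certificates of the cell from `19 / (p + 2)` to `19 / 25`, `31 ≤ p ≤ 47`, part 1
-/

namespace Vale.Agent.P237.Petty.Cor.Mid32.Cell4

open Mid50 P100.Bernstein

def top1 : certify false
    (topExpr piece1)
    (topBox data piece1)
    (.split 0 .leaf .leaf) = true := by
  refine Few.certify_of_quick ?_
  decide +kernel

def low1 : certify false
    (loExpr piece1)
    (zBox data piece1)
    .leaf = true := by
  refine Few.certify_of_quick ?_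
  decide +kernel

def high1 : certify false
    (hiExpr piece1)
    (zBox data piece1)
    .leaf = true := by
  refine Few.certify_of_quick ?_
  decide +kernel

def vertex1_ll : certify true
    (vertex ofRat data Corner.ll piece1 (.var 0) (.var 1))
    (box2 data piece1)
    .leaf = true := by
  decide +kernel

def vertex1_lh : certify true
    (vertex ofRat data Corner.lh piece1 (.var 0) (.var 1))
    (box2 data piece1)
    .leaf = true := by
  decide +kernel

def vertex1_hl : certify true
    (vertex ofRat data Corner.hl piece1 (.var 0) (.var 1))
    (box2 data piece1)
    .leaf = true := by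
  decide +kernel

def vertex1_hh : certify true
    (vertex ofRat data Corner.hh piece1 (.var 0) (.var 1))
    (box2 data piece1)
    .leaf = true := by
  decide +kernel

def near1_ll : certify false
    (nearClaim ofRat data Corner.ll piece1 (.var 0) (.var 1))
    (box2 data piece1)
    .leaf = true := by
  refine Few.certify_of_quick ?_
  decide +kernel

def near1_lh : certify false
    (nearClaim ofRat data Corner.lh piece1 (.var 0) (.var 1))
    (box2 data piece1)
    .leaf = true := by
  refine Few.certify_of_quick ?_
  decide +kernel

def near1_hl : certify false
    (nearClaim ofRat data Corner.hl piece1 (.var 0) (.var 1))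
    (box2 data piece1)
    .leaf = true := by
  refine Few.certify_of_quick ?_
  decide +kernel

def near1_hh : certify false
    (nearClaim ofRat data Corner.hh piece1 (.var 0) (.var 1))
    (box2 data piece1)
    .leaf = true := by
  refine Few.certify_of_quick ?_
  decide +kernel

def far1_ll : certify false
    (farClaim ofRat data Corner.ll piece1 (.var 0) (.var 1) (.var 2))
    (box3 data piece1)
    (.split 2 (.split 2 (.split 2 (.split 2 (.split 2 (.split 2 (.split 2 .leaf .leaf) .leaf)
      .leaf) .leaf) .leaf) .leaf) .leaf) = true := by
  refine Few.certify_of_quick ?_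
  decide +kernel

def far1_lh : certify false
    (farClaim ofRat data Corner.lh piece1 (.var 0) (.var 1) (.var 2))
    (box3 data piece1)
    (.split 2 (.split 2 (.split 2 (.split 2 (.split 2 (.split 2 (.split 2 .leaf .leaf) .leaf)
      .leaf) .leaf) .leaf) .leaf) .leaf) = true := by
  refine Few.certify_of_quick ?_
  decide +kernel

def far1_hl : certify false
    (farClaim ofRat data Corner.hl piece1 (.var 0) (.var 1) (.var 2))
    (box3 data piece1)
    (.split 2 (.split 2 (.split 2 (.split 2 (.split 2 (.split 2 .leaf .leaf) .leaf) .leaf)
      .leaf) .leaf) .leaf) = true := by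
  refine Few.certify_of_quick ?_
  decide +kernel

def far1_hh : certify false
    (farClaim ofRat data Corner.hh piece1 (.var 0) (.var 1) (.var 2))
    (box3 data piece1)
    (.split 2 (.split 2 (.split 2 (.split 2 (.split 2 (.split 2 .leaf .leaf) .leaf) .leaf)
      .leaf) .leaf) .leaf) = true := by
  refine Few.certify_of_quick ?_
  decide +kernel

def top2 : certify false
    (topExpr piece2)
    (topBox data piece2)
    (.split 0 .leaf .leaf) = true := by
  refine Few.certify_of_quick ?_
  decide +kernel

def low2 : certify false
    (loExpr piece2)
    (zBox data piece2)
    .leaf = true := by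
  refine Few.certify_of_quick ?_
  decide +kernel

def high2 : certify false
    (hiExpr piece2)
    (zBox data piece2)
    .leaf = true := by
  refine Few.certify_of_quick ?_
  decide +kernel

def vertex2_ll : certify true
    (vertex ofRat data Corner.ll piece2 (.var 0) (.var 1))
    (box2 data piece2)
    .leaf = true := by
  decide +kernel

def vertex2_lh : certify true
    (vertex ofRat data Corner.lh piece2 (.var 0) (.var 1))
    (box2 data piece2)
    .leaf = true := by
  decide +kernel

def vertex2_hl : certify true
    (vertex ofRat data Corner.hl piece2 (.var 0) (.var 1))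
    (box2 data piece2)
    .leaf = true := by
  decide +kernel

def vertex2_hh : certify true
    (vertex ofRat data Corner.hh piece2 (.var 0) (.var 1))
    (box2 data piece2)
    .leaf = true := by
  decide +kernel

def near2_ll : certify false
    (nearClaim ofRat data Corner.ll piece2 (.var 0) (.var 1))
    (box2 data piece2)
    .leaf = true := by
  refine Few.certify_of_quick ?_
  decide +kernel

def near2_lh : certify false
    (nearClaim ofRat data Corner.lh piece2 (.var 0) (.var 1))
    (box2 data piece2)
    .leaf = true := by
  refine Few.certify_of_quick ?_
  decide +kernel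

def near2_hl : certify false
    (nearClaim ofRat data Corner.hl piece2 (.var 0) (.var 1))
    (box2 data piece2)
    .leaf = true := by
  refine Few.certify_of_quick ?_
  decide +kernel

def near2_hh : certify false
    (nearClaim ofRat data Corner.hh piece2 (.var 0) (.var 1))
    (box2 data piece2)
    .leaf = true := by
  refine Few.certify_of_quick ?_
  decide +kernel

def far2_ll : certify false
    (farClaim ofRat data Corner.ll piece2 (.var 0) (.var 1) (.var 2))
    (box3 data piece2)
    (.split 2 (.split 2 (.split 2 (.split 2 (.split 2 (.split 2 (.split 2 .leaf .leaf) .leaf)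
      .leaf) .leaf) .leaf) .leaf) .leaf) = true := by
  refine Few.certify_of_quick ?_
  decide +kernel

def far2_lh : certify false
    (farClaim ofRat data Corner.lh piece2 (.var 0) (.var 1) (.var 2))
    (box3 data piece2)
    (.split 2 (.split 2 (.split 2 (.split 2 (.split 2 (.split 2 (.split 2 .leaf .leaf) .leaf)
      .leaf) .leaf) .leaf) .leaf) .leaf) = true := by
  refine Few.certify_of_quick ?_
  decide +kernel

def far2_hl : certify false
    (farClaim ofRat data Corner.hl piece2 (.var 0) (.var 1) (.var 2))
    (box3 data piece2)
    (.split 2 (.split 2 (.split 2 (.split 2 (.split 2 (.split 2 (.split 2 .leaf .leaf) .leaf)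
      .leaf) .leaf) .leaf) .leaf) .leaf) = true := by
  refine Few.certify_of_quick ?_
  decide +kernel

def far2_hh : certify false
    (farClaim ofRat data Corner.hh piece2 (.var 0) (.var 1) (.var 2))
    (box3 data piece2)
    (.split 2 (.split 2 (.split 2 (.split 2 (.split 2 (.split 2 (.split 2 .leaf .leaf) .leaf)
      .leaf) .leaf) .leaf) .leaf) .leaf) = true := by
  refine Few.certify_of_quick ?_
  decide +kernel

def top3 : certify false
    (topExpr piece3)
    (topBox data piece3)
    (.split 0 .leaf .leaf) = true := by
  refine Few.certify_of_quick ?_
  decide +kernel

def low3 : certify false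
    (loExpr piece3)
    (zBox data piece3)
    .leaf = true := by
  refine Few.certify_of_quick ?_
  decide +kernel

def high3 : certify false
    (hiExpr piece3)
    (zBox data piece3)
    .leaf = true := by
  refine Few.certify_of_quick ?_
  decide +kernel

def vertex3_ll : certify true
    (vertex ofRat data Corner.ll piece3 (.var 0) (.var 1))
    (box2 data piece3)
    .leaf = true := by
  decide +kernel

def vertex3_lh : certify true
    (vertex ofRat data Corner.lh piece3 (.var 0) (.var 1))
    (box2 data piece3)
    .leaf = true := by
  decide +kernel

def vertex3_hl : certify true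
    (vertex ofRat data Corner.hl piece3 (.var 0) (.var 1))
    (box2 data piece3)
    .leaf = true := by
  decide +kernel

def vertex3_hh : certify true
    (vertex ofRat data Corner.hh piece3 (.var 0) (.var 1))
    (box2 data piece3)
    .leaf = true := by
  decide +kernel

def near3_ll : certify false
    (nearClaim ofRat data Corner.ll piece3 (.var 0) (.var 1))
    (box2 data piece3)
    .leaf = true := by
  refine Few.certify_of_quick ?_
  decide +kernel

def near3_lh : certify false
    (nearClaim ofRat data Corner.lh piece3 (.var 0) (.var 1))
    (box2 data piece3)
    .leaf = true := by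
  refine Few.certify_of_quick ?_
  decide +kernel

def near3_hl : certify false
    (nearClaim ofRat data Corner.hl piece3 (.var 0) (.var 1))
    (box2 data piece3)
    .leaf = true := by
  refine Few.certify_of_quick ?_
  decide +kernel

def near3_hh : certify false
    (nearClaim ofRat data Corner.hh piece3 (.var 0) (.var 1))
    (box2 data piece3)
    .leaf = true := by
  refine Few.certify_of_quick ?_
  decide +kernel

def far3_ll : certify false
    (farClaim ofRat data Corner.ll piece3 (.var 0) (.var 1) (.var 2))
    (box3 data piece3)
    (.split 2 (.split 2 (.split 2 (.split 2 (.split 2 (.split 2 (.split 2 .leaf .leaf) .leaf)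
      .leaf) .leaf) .leaf) .leaf) .leaf) = true := by
  refine Few.certify_of_quick ?_
  decide +kernel

def far3_lh : certify false
    (farClaim ofRat data Corner.lh piece3 (.var 0) (.var 1) (.var 2))
    (box3 data piece3)
    (.split 2 (.split 2 (.split 2 (.split 2 (.split 2 (.split 2 (.split 2 .leaf .leaf) .leaf)
      .leaf) .leaf) .leaf) .leaf) .leaf) = true := by
  refine Few.certify_of_quick ?_
  decide +kernel

def far3_hl : certify false
    (farClaim ofRat data Corner.hl piece3 (.var 0) (.var 1) (.var 2))
    (box3 data piece3)
    (.split 2 (.split 2 (.split 2 (.split 2 (.split 2 (.split 2 (.split 1 .leaf .leaf) .leaf)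
      .leaf) .leaf) .leaf) .leaf) .leaf) = true := by
  refine Few.certify_of_quick ?_
  decide +kernel

def far3_hh : certify false
    (farClaim ofRat data Corner.hh piece3 (.var 0) (.var 1) (.var 2))
    (box3 data piece3)
    (.split 2 (.split 2 (.split 2 (.split 2 (.split 2 (.split 2 .leaf .leaf) .leaf) .leaf)
      .leaf) .leaf) .leaf) = true := by
  refine Few.certify_of_quick ?_
  decide +kernel

def top4 : certify false
    (topExpr piece4)
    (topBox data piece4)
    (.split 0 .leaf .leaf) = true := by
  refine Few.certify_of_quick ?_
  decide +kernel

def low4 : certify false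
    (loExpr piece4)
    (zBox data piece4)
    .leaf = true := by
  refine Few.certify_of_quick ?_
  decide +kernel

def high4 : certify false
    (hiExpr piece4)
    (zBox data piece4)
    .leaf = true := by
  refine Few.certify_of_quick ?_
  decide +kernel

def vertex4_ll : certify true
    (vertex ofRat data Corner.ll piece4 (.var 0) (.var 1))
    (box2 data piece4)
    .leaf = true := by
  decide +kernel

def vertex4_lh : certify true
    (vertex ofRat data Corner.lh piece4 (.var 0) (.var 1))
    (box2 data piece4)
    .leaf = true := by
  decide +kernel

def vertex4_hl : certify true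
    (vertex ofRat data Corner.hl piece4 (.var 0) (.var 1))
    (box2 data piece4)
    .leaf = true := by
  decide +kernel

def vertex4_hh : certify true
    (vertex ofRat data Corner.hh piece4 (.var 0) (.var 1))
    (box2 data piece4)
    .leaf = true := by
  decide +kernel

def near4_ll : certify false
    (nearClaim ofRat data Corner.ll piece4 (.var 0) (.var 1))
    (box2 data piece4)
    .leaf = true := by
  refine Few.certify_of_quick ?_
  decide +kernel

def near4_lh : certify false
    (nearClaim ofRat data Corner.lh piece4 (.var 0) (.var 1))
    (box2 data piece4)
    .leaf = true := by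
  refine Few.certify_of_quick ?_
  decide +kernel

def near4_hl : certify false
    (nearClaim ofRat data Corner.hl piece4 (.var 0) (.var 1))
    (box2 data piece4)
    .leaf = true := by
  refine Few.certify_of_quick ?_
  decide +kernel

def near4_hh : certify false
    (nearClaim ofRat data Corner.hh piece4 (.var 0) (.var 1))
    (box2 data piece4)
    .leaf = true := by
  refine Few.certify_of_quick ?_
  decide +kernel

def far4_ll : certify false
    (farClaim ofRat data Corner.ll piece4 (.var 0) (.var 1) (.var 2))
    (box3 data piece4)
    (.split 2 (.split 2 (.split 2 (.split 2 (.split 2 (.split 2 (.split 2 .leaf .leaf) .leaf)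
      .leaf) .leaf) .leaf) .leaf) .leaf) = true := by
  refine Few.certify_of_quick ?_
  decide +kernel

end Vale.Agent.P237.Petty.Cor.Mid32.Cell4
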